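import Vale.Agent.P291.Hik.Prod
import Vale.Agent.P291.HX.HXCore

/-!
# Comparison of the directed cut ideal and of `e(h)` with those of HXCore
-/

set_option linter.unusedSectionVars false
set_option linter.unusedSimpArgs false

open MvPolynomial

namespace Vale.Agent.P291.Hik

variable {I E : Type} [Fintype I] [DecidableEq I] [Fintype E] (Q : QData I E)
  {L : Type} [CommRing L] [IsDomain L] (m : Q.Fl → L) (h : L)

theorem mem_oU {B : Type} (U : Finset B) (b : B) : some b ∈ HX.oU U ↔ b ∈ U := by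
  unfold HX.oU
  simp

theorem none_oU {B : Type} (U : Finset B) : none ∉ HX.oU U := by
  unfold HX.oU
  simp

/-- the leaving edges `b → o` -/
noncomputable def Ym (U : Finset Q.Col) : MvPolynomial Q.Col L :=
  ∏ p ∈ (core Q m).Wt, if p.2.1 ∈ U ∧ p.2.2 ∉ HX.oU U then C h - (core Q m).xi p else 1

/-- the leaving edges `o → b` -/
noncomputable def Yp (U : Finset Q.Col) : MvPolynomial Q.Col L :=
  ∏ p ∈ (core Q m).Wt, if p.2.2 ∈ HX.oU U ∧ p.2.1 ∉ U then C h + (core Q m).xi p else 1

theorem Y_eq (U : Finset Q.Col) : ((core Q m).dir h).Y U = Ym Q m h U * Yp Q m h U := by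
  unfold HX.DA.Y HX.DA.Out
  rw [Finset.prod_filter, Fintype.prod_prod_type]
  unfold Ym Yp QD.Wt
  rw [← Finset.prod_mul_distrib]
  have h1 : ∀ p : {p : Q.Fl × Q.Col × Option Q.Col //
      ((core Q m).vx p.2.1 = (core Q m).src p.1 ∧ (core Q m).vo p.2.2 = (core Q m).tgt p.1) ∧
        p.2.2 ≠ some p.2.1},
      (∏ y : Bool, if ((core Q m).dir h).tl (p, y) ∈ HX.oU U ∧ ((core Q m).dir h).hd (p, y) ∉ HX.oU U
        then ((core Q m).dir h).w (p, y) else 1) =
      (if p.1.2.1 ∈ U ∧ p.1.2.2 ∉ HX.oU U then C h - (core Q m).xi p.1 else 1) *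
        (if p.1.2.2 ∈ HX.oU U ∧ p.1.2.1 ∉ U then C h + (core Q m).xi p.1 else 1) := by
    intro p
    rw [Fintype.prod_bool, mul_comm]
    congr 1
    · have e1 : ((core Q m).dir h).tl (p, false) = some p.1.2.1 := rfl
      have e2 : ((core Q m).dir h).hd (p, false) = p.1.2.2 := rfl
      have e3 : ((core Q m).dir h).w (p, false) = C h - (core Q m).xi p.1 := by
        have : ((core Q m).dir h).w (p, false) =
          X p.1.2.1 - xo L p.1.2.2 + C (h - (core Q m).t p.1.1) := rfl
        rw [this]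
        unfold QD.xi
        rw [map_sub]
        ring
      rw [e1, e2, e3]
      exact if_congr (by rw [mem_oU]) rfl rfl
    · have e1 : ((core Q m).dir h).tl (p, true) = p.1.2.2 := rfl
      have e2 : ((core Q m).dir h).hd (p, true) = some p.1.2.1 := rfl
      have e3 : ((core Q m).dir h).w (p, true) = C h + (core Q m).xi p.1 := by
        have : ((core Q m).dir h).w (p, true) =
          xo L p.1.2.2 - X p.1.2.1 + C (h + (core Q m).t p.1.1) := rfl
        rw [this]
        unfold QD.xi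
        rw [map_add]
        ring
      rw [e1, e2, e3]
      exact if_congr (by rw [mem_oU]) rfl rfl
  rw [Finset.prod_congr rfl (fun p _ => h1 p)]
  rw [← Finset.prod_subtype (Finset.univ.filter fun p : Q.Fl × Q.Col × Option Q.Col =>
      ((core Q m).vx p.2.1 = (core Q m).src p.1 ∧ (core Q m).vo p.2.2 = (core Q m).tgt p.1) ∧
        p.2.2 ≠ some p.2.1) (by simp)
    (fun p => (if p.2.1 ∈ U ∧ p.2.2 ∉ HX.oU U then C h - (core Q m).xi p else 1) *
        (if p.2.2 ∈ HX.oU U ∧ p.2.1 ∉ U then C h + (core Q m).xi p else 1))]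
  rw [Finset.prod_filter, Finset.prod_filter]
  refine Finset.prod_congr rfl fun p _ => ?_
  by_cases hA : (core Q m).vx p.2.1 = (core Q m).src p.1 ∧
      (core Q m).vo p.2.2 = (core Q m).tgt p.1
  · by_cases ho : p.2.2 = some p.2.1
    · rw [if_neg (fun e => e.2 ho), if_pos hA, ho]
      by_cases hU : p.2.1 ∈ U
      · rw [if_neg, if_neg, one_mul]
        · rintro ⟨_, h3⟩
          exact h3 hU
        · rintro ⟨_, h3⟩
          exact h3 ((mem_oU U _).mpr hU)
      · rw [if_neg, if_neg, one_mul]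
        · rintro ⟨h3, _⟩
          exact hU ((mem_oU U _).mp h3)
        · rintro ⟨h3, _⟩
          exact hU h3
    · rw [if_pos ⟨hA, ho⟩, if_pos hA]
  · rw [if_neg (fun e => hA e.1), if_neg hA]

/-- the sign -/
noncomputable def sg (U : Finset Q.Col) : MvPolynomial Q.Col L :=
  ∏ p ∈ (core Q m).Wt, if p.2.1 ∈ U ∧ p.2.2 ∉ HX.oU U then -1 else 1

theorem sg_mul (U : Finset Q.Col) : sg Q m U * sg Q m U = 1 := by
  unfold sg
  rw [← Finset.prod_mul_distrib]
  apply Finset.prod_eq_one
  intro p _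
  split_ifs
  · rw [neg_mul_neg, one_mul]
  · rw [one_mul]

theorem rho_neg (U : Finset Q.Col) :
    (core Q (fun a => m a - h)).rho (Q.ind 1 U) = sg Q m U * Ym Q m h U := by
  unfold QD.rho sg Ym
  rw [← Finset.prod_mul_distrib]
  refine Finset.prod_congr rfl fun p _ => ?_
  have h1 : ∀ c : Q.Col, Q.ind 1 U c = if c ∈ U then 1 else 0 := fun c => rfl
  have h2 : (core Q (fun a => m a - h)).xi p = (core Q m).xi p - C h := by
    have : (core Q (fun a => m a - h)).xi p = xo L p.2.2 - X p.2.1 + C (m p.1 - h) := rfl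
    rw [this]
    have h3 : (core Q m).xi p = xo L p.2.2 - X p.2.1 + C (m p.1) := rfl
    rw [h3, map_sub]
    ring
  rw [h2]
  generalize (core Q m).xi p = ξ
  obtain ⟨a, r, o⟩ := p
  rcases o with _ | s
  · by_cases hr : r ∈ U
    · simp [ext, h1, hr, none_oU]
    · simp [ext, h1, hr, none_oU]
  · by_cases hr : r ∈ U <;> by_cases hs : s ∈ U <;> simp [ext, h1, hr, hs, mem_oU]

theorem rho_pos (U : Finset Q.Col) :
    (core Q (fun a => m a + h)).rho (Q.ind (-1) U) = Yp Q m h U := by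
  unfold QD.rho Yp
  refine Finset.prod_congr rfl fun p _ => ?_
  have h1 : ∀ c : Q.Col, Q.ind (-1) U c = if c ∈ U then -1 else 0 := fun c => rfl
  have h2 : (core Q (fun a => m a + h)).xi p = C h + (core Q m).xi p := by
    have : (core Q (fun a => m a + h)).xi p = xo L p.2.2 - X p.2.1 + C (m p.1 + h) := rfl
    rw [this]
    have h3 : (core Q m).xi p = xo L p.2.2 - X p.2.1 + C (m p.1) := rfl
    rw [h3, map_add]
    ring
  rw [h2]
  generalize (core Q m).xi p = ξ
  obtain ⟨a, r, o⟩ := p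
  rcases o with _ | s
  · by_cases hr : r ∈ U
    · simp [ext, h1, hr, none_oU]
    · simp [ext, h1, hr, none_oU]
  · by_cases hr : r ∈ U <;> by_cases hs : s ∈ U <;> simp [ext, h1, hr, hs, mem_oU]

theorem rc_mul (U : Finset Q.Col) :
    Q.rc (fun a => m a - h) (Q.ind 1 U) * Q.rc (fun a => m a + h) (Q.ind (-1) U) =
      sg Q m U * ((core Q m).dir h).Y U := by
  have h1 : rcM Q (fun a => m a - h) (Q.ind 1 U) * rcM Q (fun a => m a + h) (Q.ind (-1) U) =
      sg Q m U * ((core Q m).dir h).Y U := by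
    rw [rcM_eq, rcM_eq, rho_neg, rho_pos, Y_eq, mul_assoc]
  exact h1

theorem Y_eq_rc (U : Finset Q.Col) : ((core Q m).dir h).Y U = sg Q m U *
    (rcM Q (fun a => m a - h) (Q.ind 1 U) * rcM Q (fun a => m a + h) (Q.ind (-1) U)) := by
  rw [rcM_eq, rcM_eq, rho_neg, rho_pos, Y_eq, ← mul_assoc, ← mul_assoc, sg_mul, one_mul]

theorem Y_mem (U : Finset Q.Col) (hU : U.Nonempty) :
    ((core Q m).dir h).Y U ∈ Q.IT (fun a => m a - h) (fun a => m a + h) := by
  have h1 : sg Q m U *
      (rcM Q (fun a => m a - h) (Q.ind 1 U) * rcM Q (fun a => m a + h) (Q.ind (-1) U)) ∈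
      Q.IT (fun a => m a - h) (fun a => m a + h) :=
    (Q.IT (fun a => m a - h) (fun a => m a + h)).mul_mem_left (sg Q m U)
      (Ideal.subset_span ⟨U, hU, rfl⟩)
  rw [Y_eq_rc]
  exact h1

/-- the directed cut ideals agree -/
theorem mem_IT (f : MvPolynomial Q.Col L) :
    f ∈ Q.IT (fun a => m a - h) (fun a => m a + h) ↔ f ∈ ((core Q m).dir h).I := by
  constructor
  · intro hf
    refine Submodule.span_induction
      (p := fun (f : Q.SS L) _ => (f : MvPolynomial Q.Col L) ∈ ((core Q m).dir h).I)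
      ?_ ?_ ?_ ?_ hf
    · rintro x ⟨U, hU, rfl⟩
      rw [rc_mul]
      exact Ideal.mul_mem_left _ _ (Ideal.subset_span ⟨U, hU, rfl⟩)
    · exact ((core Q m).dir h).I.zero_mem
    · exact fun x y _ _ hx hy => ((core Q m).dir h).I.add_mem hx hy
    · exact fun a x _ hx => ((core Q m).dir h).I.mul_mem_left _ hx
  · intro hf
    refine Submodule.span_induction
      (p := fun (f : MvPolynomial Q.Col L) _ =>
        (f : Q.SS L) ∈ Q.IT (fun a => m a - h) (fun a => m a + h)) ?_ ?_ ?_ ?_ hf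
    · rintro x ⟨U, hU, rfl⟩
      exact Y_mem Q m h U hU
    · exact (Q.IT _ _).zero_mem
    · exact fun x y _ _ hx hy => (Q.IT _ _).add_mem hx hy
    · exact fun a x _ hx => (Q.IT _ _).mul_mem_left _ hx

/-- `e(h)` in terms of `MvPolynomial` -/
noncomputable def eulM : MvPolynomial Q.Col L :=
  ∏ c : Q.Col, ∏ d ∈ Finset.univ.filter (fun d : Q.Col => d.1 = c.1 ∧ d ≠ c),
    (X c - X d) * (C (2 * h) - (X c - X d))

theorem eul_rfl : Q.eul h = eulM Q h := rfl

theorem eulM_eq : eulM Q h = (core Q m).EB h := by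
  unfold QD.EB QD.Prs eulM
  rw [Finset.filter_filter, Finset.prod_filter, Fintype.prod_prod_type]
  refine Finset.prod_congr rfl fun c _ => ?_
  rw [Finset.prod_filter]
  refine Finset.prod_congr rfl fun d _ => ?_
  by_cases h1 : d.1 = c.1 ∧ d ≠ c
  · rw [if_pos h1, if_pos (show (core Q m).vx (c, d).1 = (core Q m).vx (c, d).2 ∧
      (c, d).1 ≠ (c, d).2 from ⟨h1.1.symm, fun e => h1.2 e.symm⟩)]
    congr 1
    ring
  · rw [if_neg h1, if_neg (show ¬ ((core Q m).vx (c, d).1 = (core Q m).vx (c, d).2 ∧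
      (c, d).1 ≠ (c, d).2) from fun e => h1 ⟨e.1.symm, fun e' => e.2 e'.symm⟩)]

theorem mem_colon (f : MvPolynomial Q.Col L) :
    f ∈ (Q.IT (fun a => m a - h) (fun a => m a + h)).colon {Q.eul h} ↔
      (core Q m).EB h * f ∈ ((core Q m).dir h).I := by
  refine (Submodule.mem_colon_singleton (N := Q.IT (fun a => m a - h) (fun a => m a + h))
    (x := Q.eul h) (r := f)).trans ((mem_IT Q m h (f * eulM Q h)).trans ?_)
  rw [eulM_eq Q m, mul_comm]

end Vale.Agent.P291.Hik
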