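import Vale.Agent.P291.Hik.Surj
import Vale.Agent.P291.Hik.Edges

/-!
# The two kernels
-/

set_option linter.unusedSectionVars false
set_option linter.unusedSimpArgs false

open MvPolynomial

namespace Vale.Agent.P291.Hik

section

variable {I E : Type} [Fintype I] [DecidableEq I] [Fintype E] (Q : QData I E)
  {L : Type} [CommRing L] [IsDomain L] (m : Q.Fl → L) (h : L)

theorem rename_EB {σ : Equiv.Perm Q.Col} (hσ : σ ∈ (core Q m).W) :
    rename σ ((core Q m).EB h) = (core Q m).EB h := by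
  unfold QD.EB
  rw [map_prod]
  refine Finset.prod_equiv (Equiv.prodCongr σ σ) ?_ ?_
  · intro p
    simp [QD.Prs, (mem_W (core Q m)).1 hσ]
  · intro p _
    simp

theorem mem_oU_map (σ : Equiv.Perm Q.Col) (U : Finset Q.Col) (o : Option Q.Col) :
    o.map σ ∈ HX.oU (U.map σ.toEmbedding) ↔ o ∈ HX.oU U := by
  cases o with
  | none => simp [none_oU]
  | some c => simp [mem_oU]

theorem rename_Ym {σ : Equiv.Perm Q.Col} (hσ : σ ∈ (core Q m).W) (U : Finset Q.Col) :
    rename σ (Ym Q m h U) = Ym Q m h (U.map σ.toEmbedding) := by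
  unfold Ym
  rw [map_prod]
  refine Finset.prod_equiv (wtEquiv σ) (fun p => (wtEquiv_mem (core Q m) hσ p).symm) ?_
  intro p _
  have h1 : (wtEquiv σ p).2.1 ∈ U.map σ.toEmbedding ↔ p.2.1 ∈ U := by
    simp [wtEquiv]
  have h2 : (wtEquiv σ p).2.2 ∈ HX.oU (U.map σ.toEmbedding) ↔ p.2.2 ∈ HX.oU U :=
    mem_oU_map Q σ U p.2.2
  simp only [h1, h2]
  split_ifs
  · rw [map_sub, rename_C, rename_xi]
  · rw [map_one]

theorem rename_Yp {σ : Equiv.Perm Q.Col} (hσ : σ ∈ (core Q m).W) (U : Finset Q.Col) :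
    rename σ (Yp Q m h U) = Yp Q m h (U.map σ.toEmbedding) := by
  unfold Yp
  rw [map_prod]
  refine Finset.prod_equiv (wtEquiv σ) (fun p => (wtEquiv_mem (core Q m) hσ p).symm) ?_
  intro p _
  have h1 : (wtEquiv σ p).2.1 ∈ U.map σ.toEmbedding ↔ p.2.1 ∈ U := by
    simp [wtEquiv]
  have h2 : (wtEquiv σ p).2.2 ∈ HX.oU (U.map σ.toEmbedding) ↔ p.2.2 ∈ HX.oU U :=
    mem_oU_map Q σ U p.2.2
  simp only [h1, h2]
  split_ifs
  · rw [map_add, rename_C, rename_xi]
  · rw [map_one]

theorem rename_I {σ : Equiv.Perm Q.Col} (hσ : σ ∈ (core Q m).W) {f : MvPolynomial Q.Col L}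
    (hf : f ∈ ((core Q m).dir h).I) : rename σ f ∈ ((core Q m).dir h).I := by
  have h1 : ((core Q m).dir h).I ≤
      ((core Q m).dir h).I.comap (rename σ : MvPolynomial Q.Col L →ₐ[L] MvPolynomial Q.Col L) := by
    conv_lhs => unfold HX.DA.I
    rw [Ideal.span_le]
    rintro _ ⟨U, hU, rfl⟩
    rw [SetLike.mem_coe, Ideal.mem_comap, Y_eq, map_mul, rename_Ym Q m h hσ, rename_Yp Q m h hσ,
      ← Y_eq]
    exact Ideal.subset_span ⟨_, hU.map, rfl⟩
  exact h1 hf

/-- averaging over the Weyl group -/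
noncomputable def avg [Algebra ℚ L] (g : MvPolynomial Q.Col L) : MvPolynomial Q.Col L :=
  C (algebraMap ℚ L (Fintype.card Q.Wy : ℚ)⁻¹) * ∑ σ : Q.Wy, rename (Q.act σ) g

theorem avg_mem [Algebra ℚ L] (g : MvPolynomial Q.Col L) : avg Q g ∈ (core Q m).R := by
  intro τ hτ
  obtain ⟨ρ, rfl⟩ := exists_act Q m hτ
  unfold avg
  rw [map_mul, rename_C, map_sum]
  congr 1
  refine Fintype.sum_bijective (fun σ => ρ * σ) (Group.mulLeft_bijective ρ) _ _ ?_
  intro σ
  rw [act_mul, rename_mul]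

theorem avg_of_mem [Algebra ℚ L] {g : MvPolynomial Q.Col L} (hg : g ∈ (core Q m).R) :
    avg Q g = g := by
  unfold avg
  have h : ∀ σ : Q.Wy, rename (Q.act σ) g = g := fun σ => hg _ (act_mem Q m σ)
  rw [Finset.sum_congr rfl (fun σ _ => h σ), Finset.sum_const, Finset.card_univ, nsmul_eq_mul]
  have h1 : ((Fintype.card Q.Wy : ℕ) : MvPolynomial Q.Col L) =
      C (algebraMap ℚ L (Fintype.card Q.Wy : ℚ)) := by
    rw [map_natCast, map_natCast]
  rw [h1, ← mul_assoc, ← map_mul, ← map_mul, inv_mul_cancel₀, map_one, map_one, one_mul]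
  exact Nat.cast_ne_zero.mpr Fintype.card_ne_zero

theorem EB_avg [Algebra ℚ L] {g : MvPolynomial Q.Col L}
    (hg : (core Q m).EB h * g ∈ ((core Q m).dir h).I) :
    (core Q m).EB h * avg Q g ∈ ((core Q m).dir h).I := by
  unfold avg
  rw [mul_left_comm, Finset.mul_sum]
  refine Ideal.mul_mem_left _ _ (Ideal.sum_mem _ fun σ _ => ?_)
  have h1 : (core Q m).EB h * rename (Q.act σ) g = rename (Q.act σ) ((core Q m).EB h * g) := by
    rw [map_mul, rename_EB Q m h (act_mem Q m σ)]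
  rw [h1]
  exact rename_I Q m h (act_mem Q m σ) hg

end

section

variable {I E : Type} [Fintype I] [DecidableEq I] [Fintype E] (Q : QData I E)
  {L : Type} [CommRing L] [IsDomain L] [Algebra ℚ L] (m : Q.Fl → L) (ν : I → ℤ)

theorem map_avg {L' : Type} [CommRing L'] [IsDomain L'] [Algebra ℚ L'] (φ : L' →+* L)
    (g : MvPolynomial Q.Col L') :
    MvPolynomial.map φ (avg Q g) = avg Q (MvPolynomial.map φ g) := by
  unfold avg
  rw [map_mul, map_C, map_sum]
  congr 1
  · congr 1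
    exact RingHom.congr_fun (RingHom.ext_rat (φ.comp (algebraMap ℚ L')) (algebraMap ℚ L)) _
  · refine Finset.sum_congr rfl fun σ _ => ?_
    rw [MvPolynomial.map_rename]

theorem eval_zero_eq (R : Type) [CommRing R] :
    (Polynomial.evalRingHom 0 : Polynomial R →+* R) = Polynomial.constantCoeff := by
  ext p
  · simp
  · simp

/-- the parameters as data over `Λ[h]` -/
noncomputable abbrev mh : Q.Fl → Polynomial (MvPolynomial E L) := fun a => Polynomial.C (Q.hat m a)

theorem mem_JH (r : Q.RR L) : r ∈ Q.JH m ↔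
    ∃ g : MvPolynomial Q.Col (Polynomial (MvPolynomial E L)),
      (core Q (mh Q m)).EB Polynomial.X * g ∈ ((core Q (mh Q m)).dir Polynomial.X).I ∧
        (MvPolynomial.map (MvPolynomial.constantCoeff.comp Polynomial.constantCoeff) g :
          MvPolynomial Q.Col L) = Q.toSS L r := by
  have hs : Function.Surjective (Q.spec L) :=
    MvPolynomial.map_surjective _ (fun x => ⟨Polynomial.C (MvPolynomial.C x), by
      simp⟩)
  unfold QData.JH
  rw [Ideal.mem_comap, Ideal.mem_map_iff_of_surjective _ hs]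
  constructor
  · rintro ⟨g, hg, h⟩
    exact ⟨g, (mem_colon Q (mh Q m) Polynomial.X g).mp hg, h⟩
  · rintro ⟨g, hg, h⟩
    exact ⟨g, (mem_colon Q (mh Q m) Polynomial.X g).mpr hg, h⟩

theorem mem_JH' (r : Q.RR L) : r ∈ Q.JH m ↔
    ∃ g ∈ (core Q (Q.hat m)).JHP,
      (MvPolynomial.map MvPolynomial.constantCoeff g : MvPolynomial Q.Col L) = Q.toSS L r := by
  rw [mem_JH]
  constructor
  · rintro ⟨g, hg, h⟩
    refine ⟨MvPolynomial.map (Polynomial.evalRingHom 0) (avg Q g), ⟨avg Q g, ?_, rfl, ?_⟩, ?_⟩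
    · exact avg_mem Q (mh Q m) g
    · exact EB_avg Q (mh Q m) Polynomial.X hg
    · rw [MvPolynomial.map_map, eval_zero_eq, map_avg, h]
      exact avg_of_mem Q m ((mem_inv Q m _).mp r.2)
  · rintro ⟨_, ⟨g, _, rfl, hg⟩, h⟩
    refine ⟨g, hg, ?_⟩
    rw [MvPolynomial.map_map, eval_zero_eq] at h
    exact h

theorem nonzeroLoops_hat : (core Q (Q.hat m)).NonzeroLoops := by
  classical
  intro a ha
  rcases a with e | l
  · intro h0
    have h1 : (MvPolynomial.C (m (Sum.inl e)) + MvPolynomial.X e : MvPolynomial E L) = 0 := h0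
    have h2 := congrArg (MvPolynomial.coeff (Finsupp.single e 1)) h1
    have h3 : (0 : E →₀ ℕ) ≠ Finsupp.single e 1 := by
      intro h
      have := DFunLike.congr_fun h e
      simp at this
    rw [MvPolynomial.coeff_add, MvPolynomial.coeff_C, if_neg h3, MvPolynomial.coeff_X,
      if_pos rfl, MvPolynomial.coeff_zero, zero_add] at h2
    exact one_ne_zero h2
  · exact absurd ha (by simp [core])

theorem hat_spec (a : Q.Fl) :
    (core Q m).t a = MvPolynomial.constantCoeff ((core Q (Q.hat m)).t a) := by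
  rcases a with e | l
  · have : MvPolynomial.constantCoeff
      (MvPolynomial.C (m (Sum.inl e)) + MvPolynomial.X e : MvPolynomial E L) = m (Sum.inl e) := by
      simp
    exact this.symm
  · have : MvPolynomial.constantCoeff
      (MvPolynomial.C (m (Sum.inr l)) : MvPolynomial E L) = m (Sum.inr l) := by
      simp
    exact this.symm

/-- the kernels of the two maps agree -/
theorem JH_eq (hν : (core Q m).II ≤ (core Q m).JN ν)
    (hD : ∀ f : MvPolynomial Q.Col (MvPolynomial E L),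
      f ∈ (core Q (Q.hat m)).JC ↔ f ∈ (core Q (Q.hat m)).JHP) :
    Q.JH m = RingHom.ker (Q.phiC m ν) := by
  have hsp : (core Q m).src = (core Q (Q.hat m)).src ∧ (core Q m).tgt = (core Q (Q.hat m)).tgt ∧
      (core Q m).vx = (core Q (Q.hat m)).vx ∧
      ∀ a, (core Q m).t a = MvPolynomial.constantCoeff ((core Q (Q.hat m)).t a) :=
    ⟨rfl, rfl, rfl, hat_spec Q m⟩
  ext r
  rw [mem_ker_phiC Q m ν hν, mem_JH']
  constructor
  · rintro ⟨g, hg, hgr⟩
    have h1 := JC_map (core Q m) (core Q (Q.hat m)) MvPolynomial.constantCoeff hsp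
      ((hD _).mpr hg)
    rwa [hgr] at h1
  · intro hr
    obtain ⟨f', hf', hf⟩ := JC_lift (core Q m) (core Q (Q.hat m)) (nonzeroLoops_hat Q m)
      MvPolynomial.constantCoeff (fun x => ⟨MvPolynomial.C x, MvPolynomial.constantCoeff_C _ _⟩)
      hsp hr
    exact ⟨f', (hD _).mp hf', hf⟩

/-- the final isomorphism -/
theorem main (hν : (core Q m).II ≤ (core Q m).JN ν)
    (hD : ∀ f : MvPolynomial Q.Col (MvPolynomial E L),
      f ∈ (core Q (Q.hat m)).JC ↔ f ∈ (core Q (Q.hat m)).JHP) : Q.Hikita m ν := by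
  refine ⟨(Ideal.quotEquivOfEq (JH_eq Q m ν hν hD)).trans
    (RingHom.quotientKerEquivOfSurjective (phiC_surjective Q m ν hν)), fun r => ?_⟩
  rfl

end

end Vale.Agent.P291.Hik
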